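import Vale.Agent.P224.PO.R7s2.Val
import Vale.Agent.P224.PO.LawO
import Vale.Agent.P224.PO.LawNumO
import Vale.Agent.P224.PO.Cst

/-!
The static certificate with slack in dimension 7: the pointwise inequality and the law with
its values kept.
-/

namespace Vale.Agent.P224.PO.R7s2

open Vale.Agent.P224 Vale.Agent.P224.UE Vale.Agent.P224.POS Vale.Agent.P224.PO
open scoped RealInnerProductSpace

/-- **The pointwise inequality** with the resources and the slack. -/
theorem hpos_s {E : Type*} [NormedAddCommGroup E] [InnerProductSpace ℝ E] (e x N y w : E)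
    (he : ‖e‖ ^ 2 ≤ 25 / 36) (hx : ‖x‖ = 1) (hN : ‖N‖ = 1) (hy : ‖y‖ = 1) (hw : ‖w‖ = 1)
    (hxN : ⟪x, N⟫ = 0) (hyw : ⟪y, w⟫ = 0) (hs : ⟪x, y⟫ < 1) :
    0 ≤ Vale.Agent.P224.UE.W9 1 (38617701065 / 68719476736) (-(249325427521 / 68719476736)) (41336142129 / 8589934592) (-(51185671715 / 17179869184)) (-(36784057311 / 34359738368)) (91528957709 / 68719476736) (4036287571 / 17179869184) (0)
        (dv x N y w e)
      + hsum 7 (rlH 6597069766656 rows) (dv x N y w e)
      - ((72969135 / 536870912) * RF (-(147 / 40)) 34 (81 / 80) (dv x N y w e)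
        + (93806317697 / 34359738368) * dv x N y w e 0 ^ 3
        + (1127133481 / 8589934592) * ((dv x N y w e 1 - dv x N y w e 2) / 2) ^ 2) := by
  have h := hposS e x N y w he hx hN hy hw hxN hyw hs
  unfold XS at h
  linarith

/-- **The law with its values kept.** -/
theorem hlaw_s {Θ u r : ℝ} (h1 : 6 / 5 ≤ Θ) (h2 : Θ ≤ 14658137 / 10000000) (hu : 0 ≤ u)
    (hT : Θ ^ 2 * u ≤ 1) (hr1 : u ^ 2 ≤ r) (hr2 : r ≤ u) :
    Θ * (1 + ((38617701065 / 68719476736) + (-(249325427521 / 68719476736)) + (41336142129 / 8589934592)) * u + ((-(51185671715 / 17179869184)) + (4036287571 / 17179869184)) * r + ((-(36784057311 / 34359738368)) + (91528957709 / 68719476736)) * u ^ 2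
      + (0) * ((u - r) / ((7 : ℕ) + 1))) + KH 7 * hval 7 (rlH 6597069766656 rows) u r
      ≤ Θ * (4079 / 100000000 - 12283 / 100000 * u + 3267 / 12500 * u ^ 2) := by
  have hb := div_pi_bounds (N := 2048 / 5) (by norm_num)
  have hK : KH 7 = (2048 / 5) / Real.pi := by
    have h0 := KH_seven
    have := Real.pi_pos
    rw [h0]
    try field_simp
  rw [← hK] at hb
  rw [hval_rows]
  have h := law_two (Tm := 14658137 / 10000000) (K := KH 7) (Q0 := -(150890161328125 / 13421225325887488)) (Q1 := (-(2255986444921875 / 107369802607099904))) (Q2 := (3313051915234375 / 107369802607099904))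
    (P1 := (3135308200768625 / 1677653165735936)) (P2 := (-(1151108011328125 / 419413291433984))) (P3 := (125252843375 / 26842450651774976))
    hb.1 hb.2 (by norm_num) (by norm_num) (by norm_num) (by norm_num)
    (by norm_num) (by norm_num) (by norm_num)
    (fun T hT1 hT2 => quintic_neg (by norm_num) (by norm_num) (by norm_num) (by norm_num)
      (by norm_num) (by norm_num) (by norm_num) (le_of_eq rfl) (le_of_eq rfl) (le_of_eq rfl)
      (le_of_eq rfl) (le_of_eq rfl) (le_of_eq rfl) hT1 hT2)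
    (fun T hT1 hT2 => quintic_neg (by norm_num) (by norm_num) (by norm_num) (by norm_num)
      (by norm_num) (by norm_num) (by norm_num) (le_of_eq rfl) (le_of_eq rfl) (le_of_eq rfl)
      (le_of_eq rfl) (le_of_eq rfl) (le_of_eq rfl) hT1 hT2)
    (fun T hT1 hT2 => quintic_neg (by norm_num) (by norm_num) (by norm_num) (by norm_num)
      (by norm_num) (by norm_num) (by norm_num) (le_of_eq rfl) (le_of_eq rfl) (le_of_eq rfl)
      (le_of_eq rfl) (le_of_eq rfl) (le_of_eq rfl) hT1 hT2)
    (fun T hT1 hT2 => quintic_neg (by norm_num) (by norm_num) (by norm_num) (by norm_num)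
      (by norm_num) (by norm_num) (by norm_num) (le_of_eq rfl) (le_of_eq rfl) (le_of_eq rfl)
      (le_of_eq rfl) (le_of_eq rfl) (le_of_eq rfl) hT1 hT2)
    h1 h2 hu hT hr1 hr2
  refine le_of_sub_nonpos ?_
  refine (le_of_eq ?_).trans (mul_nonpos_of_nonneg_of_nonpos
    (by norm_num : (0 : ℝ) ≤ 1 - 4079 / 100000000) h.le)
  ring

/-- **The law for large volumes**, from a value of `u` on. -/
theorem hlaw_g {Θ u r u0 : ℝ} (h1 : 916 / 625 ≤ Θ) (h2 : Θ ≤ 14658137 / 10000000) (h0 : 0 ≤ u0)
    (h0' : u0 ≤ 1 / 1000) (hu : u0 ≤ u)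
    (hT : Θ ^ 2 * u ≤ 1) (hr1 : u ^ 2 ≤ r) (hr2 : r ≤ u) :
    Θ * (1 + ((38617701065 / 68719476736) + (-(249325427521 / 68719476736)) + (41336142129 / 8589934592)) * u + ((-(51185671715 / 17179869184)) + (4036287571 / 17179869184)) * r + ((-(36784057311 / 34359738368)) + (91528957709 / 68719476736)) * u ^ 2
      + (0) * ((u - r) / ((7 : ℕ) + 1))) + KH 7 * hval 7 (rlH 6597069766656 rows) u r
      ≤ Θ * (4079 / 100000000 - 12283 / 100000 * u0 + 3267 / 12500 * u0 ^ 2) := by
  have hu' : 0 ≤ u := h0.trans hu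
  refine (hlaw_s (le_trans (by norm_num) h1) h2 hu' hT hr1 hr2).trans
    (mul_le_mul_of_nonneg_left ?_ (le_trans (by norm_num) h1))
  have h3 : (916 / 625 : ℝ) ^ 2 * u ≤ Θ ^ 2 * u :=
    mul_le_mul_of_nonneg_right (pow_le_pow_left₀ (by norm_num) h1 2) hu'
  have hum : u ≤ 291 / 625 := by
    norm_num at h3 ⊢
    linarith
  have h4 : (0 : ℝ) ≤ 12283 / 100000 - 3267 / 12500 * (u + u0) := by
    norm_num at hum h0' ⊢
    linarith
  have h5 := mul_nonneg (sub_nonneg.2 hu) h4
  nlinarith [h5]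

end Vale.Agent.P224.PO.R7s2
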